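import Vale.Agent.P238T.Analytic
import Vale.Agent.P238T.Cost
import Vale.Agent.P238T.Assembly
import Vale.Agent.P238T.Params
import Vale.Agent.P238U.Upper

namespace Vale.Agent.Results.P238.EditDistanceL1Order

open Vale.Agent.P238

theorem result :
    (∃ c : ℝ, 0 < c ∧ ∃ n0 : ℕ, ∀ n ≥ n0, ∀ (f : (Fin n → Bool) → lp (fun _ : ℕ => ℝ) 1)
      (A B : ℝ),
      (∀ x y, ‖f x - f y‖ ≤ A * wordED x y ∧ (wordED x y : ℝ) ≤ B * ‖f x - f y‖) →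
      Real.exp (c * √(Real.log n * Real.log (Real.log n))) ≤ A * B) ∧
    ∃ C : ℝ, 0 < C ∧ ∃ n0 : ℕ, ∀ n ≥ n0, ∃ (f : (Fin n → Bool) → lp (fun _ : ℕ => ℝ) 1) (A B : ℝ),
      (∀ x y, ‖f x - f y‖ ≤ A * wordED x y ∧ (wordED x y : ℝ) ≤ B * ‖f x - f y‖) ∧
      A * B ≤ Real.exp (C * √(Real.log n * Real.log (Real.log n))) :=
  ⟨Vale.Agent.P238T.mainT (Vale.Agent.P238T.coreT Vale.Agent.P238T.poincareT Vale.Agent.P238T.costT),
    Vale.Agent.P238U.upperU⟩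

end Vale.Agent.Results.P238.EditDistanceL1Order
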